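import Vale.Agent.N184.Words

/-!
Trace coefficients of idempotent matrices over group rings: vanishing at torsion elements whose
order is not invertible, finitely generated coefficient rings and their complex embeddings.
-/

set_option linter.all false

namespace Vale.Agent.N184

open MonoidAlgebra

section cls
variable {G : Type*} [Group G] {R : Type*} [CommRing R]

open Classical in
/-- the sum of the coefficients over the conjugacy class of `x` -/
noncomputable def cls (R : Type*) [CommRing R] (x : G) : MonoidAlgebra R G →+ R :=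
  (Finsupp.liftAddHom fun g : G => if IsConj x g then AddMonoidHom.id R else 0).comp
    (MonoidAlgebra.coeffAddEquiv : MonoidAlgebra R G ≃+ (G →₀ R)).toAddMonoidHom

open Classical in
theorem cls_apply (x : G) (a : MonoidAlgebra R G) :
    cls R x a = ∑ g ∈ a.coeff.support, if IsConj x g then a.coeff g else 0 := by
  change Finsupp.liftAddHom _ a.coeff = _
  rw [Finsupp.liftAddHom_apply, Finsupp.sum]
  refine Finset.sum_congr rfl fun g _ => ?_
  split_ifs <;> rfl

open Classical in
theorem cls_single (x g : G) (r : R) : cls R x (single g r) = if IsConj x g then r else 0 := by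
  change Finsupp.liftAddHom _ (Finsupp.single g r) = _
  rw [Finsupp.liftAddHom_apply_single]
  split_ifs <;> rfl

theorem finsum_eq_cls (x : G) (a : MonoidAlgebra R G) :
    ∑ᶠ g : (ConjClasses.mk x).carrier, a.coeff g = cls R x a := by
  classical
  rw [finsum_set_coe_eq_finsum_mem (f := fun g => a.coeff g), finsum_mem_def,
    finsum_eq_sum_of_support_subset _ (s := a.coeff.support), cls_apply]
  · refine Finset.sum_congr rfl fun g _ => ?_
    rw [Set.indicator_apply, ConjClasses.mem_carrier_iff_mk_eq, ConjClasses.mk_eq_mk_iff_isConj,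
      isConj_comm]
  · intro g hg
    rw [Set.support_indicator] at hg
    exact Finsupp.mem_support_iff.2 hg.2

theorem cls_map {S : Type*} [CommRing S] (f : R →+* S) (x : G) (a : MonoidAlgebra R G) :
    cls S x (mapRingHom G f a) = f (cls R x a) := by
  induction a using MonoidAlgebra.induction_linear with
  | zero => simp
  | add a b ha hb => simp only [map_add, ha, hb]
  | single g r =>
    rw [mapRingHom_single, cls_single, cls_single]
    split_ifs <;> simp

variable {κ : Type*} [Fintype κ] [DecidableEq κ]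

theorem coeff_trace (e : Matrix κ κ (MonoidAlgebra R G)) (g : G) :
    ∑ i, (e i i).coeff g = e.trace.coeff g := by
  simp only [Matrix.trace, Matrix.diag, coeff_sum, Finsupp.finset_sum_apply]

/-- monomial matrices -/
noncomputable def Phi (κ : Type*) [Fintype κ] [DecidableEq κ] (R : Type*) [CommRing R]
    (G : Type*) [Group G] : Matrix κ κ R × G →* Matrix κ κ (MonoidAlgebra R G) where
  toFun P := P.1.map (single P.2)
  map_one' := Matrix.map_one _ (single_zero _) rfl
  map_mul' P Q := by
    ext1 i j
    simp only [Matrix.map_apply, Matrix.mul_apply, Prod.fst_mul, Prod.snd_mul, single_mul_single]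
    exact map_sum (singleAddHom (P.2 * Q.2)) _ _

open Classical in
theorem cls_Phi (x : G) (P : Matrix κ κ R × G) :
    cls R x (Phi κ R G P).trace = if IsConj x P.2 then P.1.trace else 0 := by
  rw [← cls_single]
  congr 1
  exact (map_sum (singleAddHom P.2) _ _).symm

theorem not_isConj_pow {x g : G} (hx : IsOfFinOrder x) {p : ℕ} (hp : p.Prime)
    (hpx : p ∣ orderOf x) {m : ℕ} (hm : orderOf g ≤ m) : ¬ IsConj x (g ^ p ^ m) := by
  intro h
  have h1 : IsOfFinOrder g := (h.isOfFinOrder hx).of_pow (pow_ne_zero _ hp.ne_zero)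
  obtain ⟨c, hc⟩ := h
  rw [SemiconjBy.orderOf_eq _ hc, orderOf_pow' _ (pow_ne_zero _ hp.ne_zero)] at hpx
  obtain ⟨j, hj, hj'⟩ := (Nat.dvd_prime_pow hp).1 (Nat.gcd_dvd_right (orderOf g) (p ^ m))
  have h2 : p ^ j * p ∣ orderOf g := by
    rw [← hj']
    exact Nat.mul_dvd_of_dvd_div (Nat.gcd_dvd_left _ _) hpx
  rcases hj.lt_or_eq with hj | rfl
  · have h3 : p ^ (j + 1) ∣ p ^ j := by
      rw [← hj']
      exact Nat.dvd_gcd h2 (pow_dvd_pow p hj)
    rw [Nat.pow_dvd_pow_iff_le_right hp.one_lt] at h3
    omega
  · have h3 := Nat.le_of_dvd h1.orderOf_pos h2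
    have h4 : j + 1 < p ^ (j + 1) := Nat.lt_pow_self hp.one_lt
    rw [pow_succ] at h4
    omega

theorem pow_dvd_cls {e : Matrix κ κ (MonoidAlgebra R G)} (he : e * e = e) {x : G}
    (hx : IsOfFinOrder x) {p : ℕ} (hp : p.Prime) (hpx : p ∣ orderOf x) (J : ℕ) :
    ((p ^ (J + 1) : ℕ) : R) ∣ cls R x e.trace := by
  classical
  set S : Finset G := Finset.univ.biUnion fun ij : κ × κ => (e ij.1 ij.2).coeff.support with hS
  set b : S → Matrix κ κ R × G := fun s => (Matrix.of fun i j => (e i j).coeff s, s) with hb
  have h1 : e = ∑ s, Phi κ R G (b s) := by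
    ext1 i j
    rw [Matrix.sum_apply]
    change _ = ∑ s : S, single (s : G) ((e i j).coeff s)
    rw [Finset.sum_coe_sort S (fun s => single s ((e i j).coeff s))]
    conv_lhs => rw [← sum_coeff_single (e i j)]
    refine Finsupp.sum_of_support_subset _ ?_ _ fun g _ => single_zero g
    exact Finset.subset_biUnion_of_mem (fun ij : κ × κ => (e ij.1 ij.2).coeff.support)
      (Finset.mem_univ (i, j))
  obtain ⟨m, hm⟩ := ((List.finite_length_eq S (p ^ J)).image
    fun l => orderOf ((l.map b).prod.2)).bddAbove
  haveI : NeZero (p ^ (J + m)) := ⟨pow_ne_zero _ hp.ne_zero⟩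
  have h2 : e ^ p ^ (J + m) = e := by
    obtain ⟨n, hn⟩ := Nat.exists_eq_succ_of_ne_zero (NeZero.ne (p ^ (J + m)))
    rw [hn]
    exact IsIdempotentElem.pow_succ_eq n he
  have h3 := dvd_sum_words b (fun P => if IsConj x P.2 then P.1.trace else 0) (fun P Q => by
    have h4 : IsConj (P.2 * Q.2) (Q.2 * P.2) := isConj_iff.2 ⟨Q.2, by group⟩
    have h5 : IsConj x (P.2 * Q.2) ↔ IsConj x (Q.2 * P.2) :=
      ⟨fun h => h.trans h4, fun h => h.trans h4.symm⟩
    simp only [Prod.fst_mul, Prod.snd_mul, h5, Matrix.trace_mul_comm P.1]) hp J m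
    (fun l hl => if_neg (not_isConj_pow hx hp hpx (hm ⟨l, hl, rfl⟩)))
  rw [← h2, h1, sum_pow_wprod, Matrix.trace_sum, map_sum]
  convert h3 using 2 with w
  rw [← cls_Phi, wprod, wprod, map_list_prod, List.map_map]
  rfl

theorem cls_eq_zero_of_noeth [IsNoetherianRing R] [IsDomain R]
    {e : Matrix κ κ (MonoidAlgebra R G)} (he : e * e = e) {x : G}
    (hx : IsOfFinOrder x) {p : ℕ} (hp : p.Prime) (hpx : p ∣ orderOf x) (hu : ¬ IsUnit (p : R)) :
    cls R x e.trace = 0 := by
  have h1 := Ideal.iInf_pow_eq_bot_of_isDomain (Ideal.span {(p : R)})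
    (fun h => hu (Ideal.span_singleton_eq_top.1 h))
  rw [← Ideal.mem_bot, ← h1, Ideal.mem_iInf]
  intro J
  rw [Ideal.span_singleton_pow, Ideal.mem_span_singleton]
  refine Dvd.dvd.trans ?_ (pow_dvd_cls he hx hp hpx J)
  rw [Nat.cast_pow]
  exact pow_dvd_pow _ J.le_succ

theorem mapRingHom_inj {S : Type*} [CommRing S] {f : R →+* S} (hf : Function.Injective f) :
    Function.Injective (mapRingHom G f) := by
  intro a b h
  ext g
  apply hf
  rw [← coeff_mapRingHom, h, coeff_mapRingHom]

/-- descent of a matrix to a finitely generated coefficient ring -/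
theorem exists_descent (e : Matrix κ κ (MonoidAlgebra R G)) (he : e * e = e) :
    ∃ (A : Subalgebra ℤ R) (e₀ : Matrix κ κ (MonoidAlgebra A G)), IsNoetherianRing A ∧
      Countable A ∧ e₀ * e₀ = e₀ ∧ e₀.map (mapRingHom G A.val.toRingHom) = e := by
  classical
  set s : Set R := ⋃ i, ⋃ j, (e i j).coeff '' (e i j).coeff.support with hs
  have hfin : s.Finite := Set.finite_iUnion fun i => Set.finite_iUnion fun j =>
    (Finset.finite_toSet _).image _
  have hmem : ∀ i j g, (e i j).coeff g ∈ Algebra.adjoin ℤ s := by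
    intro i j g
    by_cases h : (e i j).coeff g = 0
    · rw [h]
      exact zero_mem _
    · exact Algebra.subset_adjoin (Set.mem_iUnion₂.2 ⟨i, j, g, Finsupp.mem_support_iff.2 h, rfl⟩)
  set e₀ : Matrix κ κ (MonoidAlgebra (Algebra.adjoin ℤ s) G) := Matrix.of fun i j =>
    ofCoeff (Finsupp.onFinset (e i j).coeff.support (fun g => ⟨_, hmem i j g⟩) fun g hg =>
      Finsupp.mem_support_iff.2 fun h => hg (Subtype.ext h)) with he₀
  have h1 : e₀.map (mapRingHom G (Algebra.adjoin ℤ s).val.toRingHom) = e := by
    ext i j g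
    rw [Matrix.map_apply, coeff_mapRingHom]
    rfl
  haveI : Algebra.FiniteType ℤ (Algebra.adjoin ℤ s) := .adjoin_of_finite hfin
  refine ⟨Algebra.adjoin ℤ s, e₀, Algebra.FiniteType.isNoetherianRing ℤ _, ?_, ?_, h1⟩
  · rw [← Cardinal.mk_le_aleph0_iff, ← Cardinal.lift_le_aleph0.{_, 0}]
    refine (Algebra.lift_cardinalMk_adjoin_le ℤ s).trans ?_
    simp [hfin.countable]
  · apply Matrix.map_injective (mapRingHom_inj (G := G)
      (f := (Algebra.adjoin ℤ s).val.toRingHom) Subtype.val_injective)
    simp only
    rw [Matrix.map_mul, h1, he]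

end cls

/-- a countable domain of characteristic zero embeds in `ℂ` -/
theorem exists_embedding (A : Type*) [CommRing A] [IsDomain A] [CharZero A] [Countable A] :
    ∃ f : A →+* ℂ, Function.Injective f := by
  set B := MvPolynomial ℝ A
  set K := AlgebraicClosure (FractionRing B)
  have h1 : Function.Injective (algebraMap (FractionRing B) K) :=
    (algebraMap (FractionRing B) K).injective
  have h2 : Function.Injective (algebraMap B (FractionRing B)) := IsFractionRing.injective _ _
  have h3 : Function.Injective (MvPolynomial.C : A →+* B) := MvPolynomial.C_injective _ _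
  have hB : Cardinal.mk B = Cardinal.continuum := by
    rw [MvPolynomial.cardinalMk_eq_max_lift]
    simp only [Cardinal.mk_real, Cardinal.lift_continuum]
    rw [max_eq_left, max_eq_right]
    · simp only [Cardinal.lift_uzero]
      exact Cardinal.mk_le_aleph0.trans Cardinal.aleph0_le_continuum
    · exact le_max_of_le_right Cardinal.aleph0_le_continuum
  have hK : Cardinal.mk K = Cardinal.continuum := by
    refine le_antisymm ?_ ?_
    · refine (Algebra.IsAlgebraic.cardinalMk_le_max (FractionRing B) K).trans ?_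
      rw [Cardinal.mk_fractionRing, hB]
      exact max_le le_rfl Cardinal.aleph0_le_continuum
    · rw [← hB]
      exact Cardinal.mk_le_of_injective (h1.comp h2)
  haveI : CharZero K := by
    have := charZero_of_injective_ringHom
      (f := ((algebraMap (FractionRing B) K).comp (algebraMap B _)).comp MvPolynomial.C)
      ((h1.comp h2).comp h3)
    exact this
  obtain ⟨φ⟩ := IsAlgClosed.ringEquiv_of_equiv_of_charZero (K := K) (L := ℂ)
    (by rw [hK]; exact Cardinal.aleph0_lt_continuum)
    (Cardinal.lift_mk_eq'.1 (by rw [hK, Cardinal.mk_complex]; simp))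
  exact ⟨φ.toRingHom.comp (((algebraMap (FractionRing B) K).comp (algebraMap B _)).comp
    MvPolynomial.C), φ.injective.comp ((h1.comp h2).comp h3)⟩

end Vale.Agent.N184
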