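import Vale.Agent.N184.Pos
import Vale.Agent.P184Z.Out.Core

/-!
The trace of an idempotent matrix over `ℓ¹(G)` whose Hattori-Stallings trace is concentrated at the
class of `1` is a natural number; the case of torsion-free groups.
-/

set_option linter.all false

namespace Vale.Agent.N184

universe u

theorem trace_idem_nat {κ : Type*} [Fintype κ] [DecidableEq κ] {M : Matrix κ κ ℂ}
    (h : M * M = M) : ∃ r : ℕ, M.trace = r := by
  have h1 : IsIdempotentElem (Matrix.toLin' M) := by
    rw [IsIdempotentElem, Module.End.mul_eq_comp, ← Matrix.toLin'_mul, h]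
  exact ⟨_, (Matrix.trace_toLin'_eq M).symm.trans
    (LinearMap.IsIdempotentElem.isProj_range _ h1).trace⟩

variable {G : Type*} [Group G] {κ : Type*} [Fintype κ] [DecidableEq κ]

/-- the bijection `(g, h) ↦ (h, h⁻¹ g)` -/
def shear (G : Type*) [Group G] : G × G ≃ G × G where
  toFun p := (p.2, p.2⁻¹ * p.1)
  invFun p := (p.1 * p.2, p.1)
  left_inv p := by simp
  right_inv p := by simp

theorem hasSum_conv {a b : G → ℂ} (ha : Summable fun g => ‖a g‖) (hb : Summable fun g => ‖b g‖) :
    HasSum (fun g => ∑' h, a h * b (h⁻¹ * g)) ((∑' g, a g) * ∑' g, b g) := by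
  have h1 := (summable_mul_of_summable_norm ha hb).hasSum
  rw [← tsum_mul_tsum_of_summable_norm ha hb, ← (shear G).hasSum_iff] at h1
  exact h1.prod_fiberwise fun g => (h1.summable.prod_factor g).hasSum

/-- the sum of all coefficients of the trace is the rank of the augmentation -/
theorem total_nat {e : Matrix κ κ (G → ℂ)} (he : ∀ i j, Summable fun g => ‖e i j g‖)
    (hee : ∀ i j g, ∑ k, ∑' h, e i k h * e k j (h⁻¹ * g) = e i j g) :
    ∃ r : ℕ, HasSum (fun C : ConjClasses G => ∑' g : C.carrier, ∑ i, e i i g) r := by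
  set M : Matrix κ κ ℂ := Matrix.of fun i j => ∑' g, e i j g with hM
  have h1 : M * M = M := by
    ext i j
    have h2 := hasSum_sum fun k (_ : k ∈ Finset.univ) => hasSum_conv (he i k) (he k j)
    simp only [hee] at h2
    rw [Matrix.mul_apply]
    exact h2.tsum_eq.symm
  obtain ⟨r, hr⟩ := trace_idem_nat h1
  have h3 : HasSum (fun g => ∑ i, e i i g) r := by
    rw [← hr]
    exact hasSum_sum fun i _ => (he i i).of_norm.hasSum
  refine ⟨r, ?_⟩
  have h4 : (fun C : ConjClasses G => ∑' g : C.carrier, ∑ i, e i i g) =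
      fun C => ∑' g : ConjClasses.mk ⁻¹' {C}, ∑ i, e i i g := by
    funext C
    rw [ConjClasses.carrier_eq_preimage_mk]
  rw [h4]
  exact h3.tsum_fiberwise ConjClasses.mk

theorem carrier_one : (ConjClasses.mk (1 : G)).carrier = {1} := by
  ext g
  rw [ConjClasses.mem_carrier_iff_mk_eq, ConjClasses.mk_eq_mk_iff_isConj, isConj_one_left]
  rfl

/-- integrality of the canonical trace if the other coefficients vanish -/
theorem trace_nat [DecidableEq G] {e : Matrix κ κ (G → ℂ)}
    (he : ∀ i j, Summable fun g => ‖e i j g‖)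
    (hee : ∀ i j g, ∑ k, ∑' h, e i k h * e k j (h⁻¹ * g) = e i j g)
    (h0 : ∀ C : ConjClasses G, C ≠ ConjClasses.mk 1 → ∑' g : C.carrier, ∑ i, e i i g = 0) :
    ∃ r : ℕ, r ≤ Fintype.card κ ∧ ∑ i, e i i 1 = r ∧ (r = 0 → e = 0) ∧
      (r = Fintype.card κ → ∀ i j g, e i j g = if i = j ∧ g = 1 then 1 else 0) := by
  obtain ⟨r, hr⟩ := total_nat he hee
  obtain ⟨t, ht0, ht1, ht, hz, ho⟩ := kaplansky he hee
  have h1 := hr.tsum_eq
  rw [tsum_eq_single (ConjClasses.mk 1) h0, carrier_one,
    tsum_singleton 1 (fun g => ∑ i, e i i g)] at h1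
  have h2 : t = r := by
    rw [ht] at h1
    exact_mod_cast h1
  subst h2
  exact ⟨r, by exact_mod_cast ht1, h1, fun h => hz (by simp [h]), fun h => ho (by simp [h])⟩

/-- idempotent matrices over `ℓ¹(G)`, `G` torsion-free -/
theorem torsionFree (G : Type u) [Group G] [DecidableEq G] (hG : ∀ g : G, IsOfFinOrder g → g = 1)
    (q : ℕ) (e : Matrix (Fin q) (Fin q) (G → ℂ)) (he : ∀ i j, Summable fun g => ‖e i j g‖)
    (hee : ∀ i j g, ∑ k, ∑' h, e i k h * e k j (h⁻¹ * g) = e i j g) :
    ∃ r : ℕ, r ≤ q ∧ ∑ i, e i i 1 = r ∧ (r = 0 → e = 0) ∧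
      (r = q → ∀ i j g, e i j g = if i = j ∧ g = 1 then 1 else 0) := by
  obtain ⟨F, hF, hF'⟩ := Vale.Agent.P184Z.Out.bassUn G q e
    ⟨he, funext fun i => funext fun j => funext fun g => hee i j g⟩
  have h := trace_nat he hee fun C hC => hF' C fun hCF => hC <| by
    obtain ⟨g, rfl⟩ := ConjClasses.mk_surjective C
    rw [hG g (hF _ hCF g ConjClasses.mem_carrier_mk)]
  simpa only [Fintype.card_fin] using h

end Vale.Agent.N184
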