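import Vale.Agent.N184.LOne
import Vale.Agent.N184.Alg

/-!
The strong Bass conjecture over domains of characteristic zero and the idempotent conjecture.
-/

set_option linter.all false

namespace Vale.Agent.N184

open MonoidAlgebra

universe u

section
variable {G : Type*} [Group G] {κ : Type*} [Fintype κ] [DecidableEq κ]

/-- a matrix over `ℂG` as a matrix of functions -/
def fn (e : Matrix κ κ (MonoidAlgebra ℂ G)) : Matrix κ κ (G → ℂ) := fun i j g => (e i j).coeff g

theorem fn_summable (e : Matrix κ κ (MonoidAlgebra ℂ G)) (i j : κ) :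
    Summable fun g => ‖fn e i j g‖ :=
  summable_of_ne_finset_zero (s := (e i j).coeff.support) fun g hg => by
    rw [fn, Finsupp.notMem_support_iff.1 hg, norm_zero]

theorem fn_idem {e : Matrix κ κ (MonoidAlgebra ℂ G)} (he : e * e = e) (i j : κ) (g : G) :
    ∑ k, ∑' h, fn e i k h * fn e k j (h⁻¹ * g) = fn e i j g := by
  conv_rhs => rw [fn, ← he, Matrix.mul_apply, coeff_sum, Finsupp.finset_sum_apply]
  refine Finset.sum_congr rfl fun k _ => ?_
  rw [coeff_mul_apply_left, Finsupp.sum, tsum_eq_sum (s := (e i k).coeff.support)]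
  · rfl
  · intro h hh
    rw [fn, Finsupp.notMem_support_iff.1 hh, zero_mul]

theorem fn_tsum (e : Matrix κ κ (MonoidAlgebra ℂ G)) (x : G) :
    ∑' g : (ConjClasses.mk x).carrier, ∑ i, fn e i i g = cls ℂ x e.trace := by
  simp only [fn, coeff_trace]
  rw [← finsum_eq_cls]
  exact tsum_eq_finsum (e.trace.coeff.finite_support.preimage Subtype.val_injective.injOn)

theorem trace_mapRingHom {R S : Type*} [CommRing R] [CommRing S] (f : R →+* S)
    (e : Matrix κ κ (MonoidAlgebra R G)) (x : G) :
    cls S x (e.map (mapRingHom G f)).trace = f (cls R x e.trace) := by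
  rw [← cls_map, AddMonoidHom.map_trace (mapRingHom G f)]

end

theorem cls_eq_zero {G : Type u} [Group G] {R : Type*} [CommRing R] [IsDomain R] [CharZero R]
    {q : ℕ} {e : Matrix (Fin q) (Fin q) (MonoidAlgebra R G)} (he : e * e = e) {x : G}
    (hx : ¬ (IsOfFinOrder x ∧ IsUnit (orderOf x : R))) : cls R x e.trace = 0 := by
  obtain ⟨A, e₀, hA, hc, he₀, rfl⟩ := exists_descent e he
  rw [trace_mapRingHom]
  suffices h : cls A x e₀.trace = 0 by rw [h, map_zero]
  by_cases hfin : IsOfFinOrder x
  · have h1 : ¬ IsUnit (orderOf x : R) := fun h => hx ⟨hfin, h⟩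
    have h2 : ∃ p : ℕ, p.Prime ∧ p ∣ orderOf x ∧ ¬ IsUnit (p : R) := by
      by_contra h3
      push Not at h3
      apply h1
      rw [← Nat.prod_primeFactorsList hfin.orderOf_pos.ne', Nat.cast_list_prod]
      refine List.prod_isUnit fun a ha => ?_
      obtain ⟨p, hp, rfl⟩ := List.mem_map.1 ha
      exact h3 p (Nat.prime_of_mem_primeFactorsList hp) (Nat.dvd_of_mem_primeFactorsList hp)
    obtain ⟨p, hp, hpx, hu⟩ := h2
    refine cls_eq_zero_of_noeth he₀ hfin hp hpx fun h => hu ?_
    simpa using h.map A.val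
  · obtain ⟨f, hf⟩ := exists_embedding A
    have h1 : e₀.map (mapRingHom G f) * e₀.map (mapRingHom G f) = e₀.map (mapRingHom G f) := by
      rw [← Matrix.map_mul, he₀]
    obtain ⟨F, hF, hF'⟩ := Vale.Agent.P184Z.Out.bassUn G q (fn (e₀.map (mapRingHom G f)))
      ⟨fn_summable _, funext fun i => funext fun j => funext fun g => fn_idem h1 i j g⟩
    have h2 := hF' (ConjClasses.mk x) fun h => hfin (hF _ h x ConjClasses.mem_carrier_mk)
    apply hf
    rw [map_zero, ← trace_mapRingHom, ← fn_tsum]
    exact h2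

/-- the strong Bass conjecture -/
theorem strongBass (G : Type u) [Group G] (R : Type*) [CommRing R] [IsDomain R] [CharZero R]
    (q : ℕ) (e : Matrix (Fin q) (Fin q) (MonoidAlgebra R G)) (he : e * e = e)
    (C : ConjClasses G) (hC : ∑ᶠ g : C.carrier, ∑ i, (e i i).coeff g ≠ 0) :
    ∀ g ∈ C.carrier, IsOfFinOrder g ∧ IsUnit (orderOf g : R) := by
  intro g hg
  obtain rfl := ConjClasses.mem_carrier_iff_mk_eq.1 hg
  by_contra h
  apply hC
  simp only [coeff_trace]
  rw [finsum_eq_cls, cls_eq_zero he h]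

/-- the rank of an idempotent matrix if no nontrivial torsion has invertible order -/
theorem rank_nat (G : Type u) [Group G] (R : Type*) [CommRing R] [IsDomain R] [CharZero R]
    (hG : ∀ g : G, IsOfFinOrder g → IsUnit (orderOf g : R) → g = 1)
    (q : ℕ) (e : Matrix (Fin q) (Fin q) (MonoidAlgebra R G)) (he : e * e = e) :
    ∃ r : ℕ, r ≤ q ∧ ∑ i, (e i i).coeff 1 = r ∧ (r = 0 → e = 0) ∧ (r = q → e = 1) := by
  classical
  obtain ⟨A, e₀, hA, hc, he₀, rfl⟩ := exists_descent e he
  obtain ⟨f, hf⟩ := exists_embedding A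
  have h1 : e₀.map (mapRingHom G f) * e₀.map (mapRingHom G f) = e₀.map (mapRingHom G f) := by
    rw [← Matrix.map_mul, he₀]
  obtain ⟨r, hr, h2, h3, h4⟩ := trace_nat (fn_summable _) (fn_idem h1) fun C hC => by
    obtain ⟨x, rfl⟩ := ConjClasses.mk_surjective C
    rw [fn_tsum, trace_mapRingHom, cls_eq_zero he₀, map_zero]
    rintro ⟨h5, h6⟩
    exact hC (by rw [hG x h5 (by simpa using h6.map A.val)])
  rw [Fintype.card_fin] at hr h4
  refine ⟨r, hr, ?_, fun h => ?_, fun h => ?_⟩
  · have h5 : ∑ i, (e₀ i i).coeff 1 = r := by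
      apply hf
      rw [map_sum, map_natCast, ← h2]
      simp only [fn, Matrix.map_apply, coeff_mapRingHom]
    simp only [Matrix.map_apply, coeff_mapRingHom]
    rw [← map_sum, h5, map_natCast]
  · have h5 : e₀ = 0 := by
      ext1 i j
      refine MonoidAlgebra.coeff_injective (Finsupp.ext fun g => hf ?_)
      have h6 := congrFun (congrFun (congrFun (h3 h) i) j) g
      simpa [fn, coeff_mapRingHom] using h6
    rw [h5, Matrix.map_zero _ (map_zero _)]
  · have h5 : e₀ = 1 := by
      ext1 i j
      refine MonoidAlgebra.coeff_injective (Finsupp.ext fun g => hf ?_)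
      have h6 := h4 h i j g
      simp only [fn, Matrix.map_apply, coeff_mapRingHom] at h6
      rw [h6, Matrix.one_apply]
      by_cases hij : i = j
      · by_cases hg : g = 1
        · simp [hij, hg]
        · simp [hij, hg, one_def, Finsupp.single_apply, Ne.symm hg]
      · simp [hij]
    rw [h5, Matrix.map_one _ (map_zero _) (map_one _)]

/-- the idempotent conjecture in characteristic zero, with its converse -/
theorem idem_iff (G : Type u) [Group G] (R : Type*) [CommRing R] [IsDomain R] [CharZero R] :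
    (∀ a : MonoidAlgebra R G, a * a = a → a = 0 ∨ a = 1) ↔
      ∀ g : G, IsOfFinOrder g → IsUnit (orderOf g : R) → g = 1 := by
  classical
  constructor
  · intro h g hg hu
    haveI : Fintype (Subgroup.zpowers g) := (finite_zpowers.2 hg).fintype
    obtain ⟨v, hv⟩ := hu.exists_left_inv
    have hc : Fintype.card (Subgroup.zpowers g) = orderOf g := by
      rw [← Nat.card_eq_fintype_card, Nat.card_zpowers]
    set a : MonoidAlgebra R G := ∑ k : Subgroup.zpowers g, single (k : G) v with ha
    have h1 : ∀ k : Subgroup.zpowers g, single (k : G) v * a = v • a := by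
      intro k
      rw [ha, Finset.mul_sum, Finset.smul_sum, ← Equiv.sum_comp (Equiv.mulLeft k)
        (fun l : Subgroup.zpowers g => v • single (l : G) v)]
      simp [single_mul_single]
    have h2 : a * a = a := by
      conv_lhs => rw [ha, Finset.sum_mul, ← ha]
      simp only [h1]
      rw [Finset.sum_const, Finset.card_univ, hc, ← Nat.cast_smul_eq_nsmul R, smul_smul, mul_comm,
        hv, one_smul]
    have h3 : a.coeff g = v := by
      rw [ha, coeff_sum, Finsupp.finset_sum_apply,
        Finset.sum_eq_single ⟨g, Subgroup.mem_zpowers g⟩]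
      · simp
      · intro k _ hk
        rw [coeff_single, Finsupp.single_eq_of_ne]
        exact fun h => hk (Subtype.ext h.symm)
      · simp
    have h4 : v ≠ 0 := by
      rintro rfl
      simp at hv
    by_contra hg1
    apply h4
    rw [← h3]
    rcases h a h2 with h5 | h5
    · simp [h5]
    · rw [h5, one_def, coeff_single, Finsupp.single_eq_of_ne hg1]
  · intro hG a ha
    obtain ⟨r, hr, -, h0, h1⟩ := rank_nat G R hG 1 (Matrix.of fun _ _ => a) (by
      ext1 i j
      simp [Matrix.mul_apply, ha])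
    rcases Nat.le_one_iff_eq_zero_or_eq_one.1 hr with h | h
    · exact Or.inl (congrFun (congrFun (h0 h) 0) 0)
    · exact Or.inr (congrFun (congrFun (h1 h) 0) 0)

theorem torsionFree' (G : Type u) [Group G] (hG : ∀ g : G, IsOfFinOrder g → g = 1)
    (q : ℕ) (e : Matrix (Fin q) (Fin q) (G → ℂ)) (he : ∀ i j, Summable fun g => ‖e i j g‖)
    (hee : ∀ i j g, ∑ k, ∑' h, e i k h * e k j (h⁻¹ * g) = e i j g) :
    ∃ r : ℕ, r ≤ q ∧ ∑ i, e i i 1 = r ∧ (r = 0 → e = 0) ∧
      (r = q → (∀ i, e i i 1 = 1) ∧ ∀ i j g, i ≠ j ∨ g ≠ 1 → e i j g = 0) := by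
  classical
  obtain ⟨r, h1, h2, h3, h4⟩ := torsionFree G hG q e he hee
  refine ⟨r, h1, h2, h3, fun h => ⟨fun i => by simp [h4 h], fun i j g hg => ?_⟩⟩
  rw [h4 h, if_neg]
  rintro ⟨h5, h6⟩
  exact hg.elim (fun h7 => h7 h5) fun h7 => h7 h6

end Vale.Agent.N184
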