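import Mathlib

/-!
Kaplansky positivity for idempotent matrices over `ℓ¹(G)`: the canonical trace is real, between
`0` and the size, and extreme only for the trivial idempotents.
-/

set_option linter.all false

namespace Vale.Agent.N184

open scoped InnerProductSpace ENNReal ComplexConjugate

section wperm
variable {ι : Type*}

/-- the Hilbert space of square summable families -/
noncomputable abbrev L2 (ι : Type*) := lp (fun _ : ι => ℂ) 2

theorem memlp_wperm (e : ι ≃ ι) (σ : ι → ℂ) (hσ : ∀ i, ‖σ i‖ ≤ 1) (z : L2 ι) :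
    Memℓp (fun i => σ i * z (e i)) 2 := by
  have h0 := lp.memℓp z
  rw [memℓp_gen_iff (by norm_num)] at h0 ⊢
  have h1 : Summable fun i => ‖z (e i)‖ ^ (2 : ℝ≥0∞).toReal :=
    (e.summable_iff (f := fun i => ‖z i‖ ^ (2 : ℝ≥0∞).toReal)).2 h0
  refine Summable.of_nonneg_of_le (fun i => by positivity) (fun i => ?_) h1
  have h2 : ‖σ i * z (e i)‖ ≤ ‖z (e i)‖ := by
    rw [norm_mul]
    exact mul_le_of_le_one_left (norm_nonneg _) (hσ i)
  exact Real.rpow_le_rpow (norm_nonneg _) h2 (by norm_num)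

theorem norm_wperm_le (e : ι ≃ ι) (σ : ι → ℂ) (hσ : ∀ i, ‖σ i‖ ≤ 1) (z : L2 ι) :
    ‖(⟨fun i => σ i * z (e i), memlp_wperm e σ hσ z⟩ : L2 ι)‖ ≤ ‖z‖ := by
  refine lp.norm_le_of_tsum_le (by norm_num) (norm_nonneg _) ?_
  rw [lp.norm_rpow_eq_tsum (by norm_num) z]
  have h0 := lp.memℓp z
  rw [memℓp_gen_iff (by norm_num)] at h0
  have h1 : Summable fun i => ‖z (e i)‖ ^ (2 : ℝ≥0∞).toReal :=
    (e.summable_iff (f := fun i => ‖z i‖ ^ (2 : ℝ≥0∞).toReal)).2 h0
  have h3 := memlp_wperm e σ hσ z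
  rw [memℓp_gen_iff (by norm_num)] at h3
  rw [← e.tsum_eq (fun i => ‖z i‖ ^ (2 : ℝ≥0∞).toReal)]
  refine Summable.tsum_le_tsum (fun i => ?_) h3 h1
  have h2 : ‖σ i * z (e i)‖ ≤ ‖z (e i)‖ := by
    rw [norm_mul]
    exact mul_le_of_le_one_left (norm_nonneg _) (hσ i)
  exact Real.rpow_le_rpow (norm_nonneg _) h2 (by norm_num)

/-- weighted permutation operators -/
noncomputable def wop (e : ι ≃ ι) (σ : ι → ℂ) (hσ : ∀ i, ‖σ i‖ ≤ 1) : L2 ι →L[ℂ] L2 ι :=
  LinearMap.mkContinuous
    { toFun := fun z => (⟨fun i => σ i * z (e i), memlp_wperm e σ hσ z⟩ : L2 ι)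
      map_add' := by
        intro x y
        ext i
        exact mul_add _ _ _
      map_smul' := by
        intro c x
        ext i
        exact mul_left_comm _ _ _ } 1 (by
      intro z
      rw [one_mul]
      exact norm_wperm_le e σ hσ z)

theorem wop_apply (e : ι ≃ ι) (σ : ι → ℂ) (hσ : ∀ i, ‖σ i‖ ≤ 1) (z : L2 ι) (i : ι) :
    wop e σ hσ z i = σ i * z (e i) := rfl

theorem norm_wop_le (e : ι ≃ ι) (σ : ι → ℂ) (hσ : ∀ i, ‖σ i‖ ≤ 1) : ‖wop e σ hσ‖ ≤ 1 :=
  LinearMap.mkContinuous_norm_le _ zero_le_one _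

/-- permutation operators -/
noncomputable def pop (e : ι ≃ ι) : L2 ι →L[ℂ] L2 ι := wop e (fun _ => 1) (by simp)

theorem pop_apply (e : ι ≃ ι) (z : L2 ι) (i : ι) : pop e z i = z (e i) := by
  simp [pop, wop_apply]

theorem inner_pop (e : ι ≃ ι) (z w : L2 ι) : ⟪pop e z, w⟫_ℂ = ⟪z, pop e.symm w⟫_ℂ := by
  rw [lp.inner_eq_tsum, lp.inner_eq_tsum, ← e.tsum_eq (fun i => ⟪z i, pop e.symm w i⟫_ℂ)]
  refine tsum_congr fun i => ?_
  rw [pop_apply, pop_apply, Equiv.symm_apply_apply]

/-- evaluation at a point -/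
noncomputable def ev (i : ι) : L2 ι →L[ℂ] ℂ := by
  classical
  exact innerSL ℂ (lp.single 2 i (1 : ℂ))

theorem ev_apply (i : ι) (z : L2 ι) : ev i z = z i := by
  classical
  simp [ev, lp.inner_single_left]

variable [DecidableEq ι]

/-- the unit vectors -/
noncomputable def dl (i : ι) : L2 ι := lp.single 2 i (1 : ℂ)

theorem dl_apply (i j : ι) : dl i j = if j = i then 1 else 0 := by
  simp [dl, lp.single_apply, Pi.single_apply]

theorem inner_dl (i : ι) (z : L2 ι) : ⟪dl i, z⟫_ℂ = z i := by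
  simp [dl, lp.inner_single_left]

theorem hasSum_apply (T : L2 ι →L[ℂ] L2 ι) (z : L2 ι) (i : ι) :
    HasSum (fun j => z j * T (dl j) i) (T z i) := by
  have h := ((ev i).comp T).hasSum (lp.hasSum_single (p := 2) (by norm_num) z)
  simp only [ContinuousLinearMap.comp_apply, ev_apply] at h
  convert h using 2 with j
  have : (lp.single 2 j (z j) : L2 ι) = z j • dl j := by
    rw [dl, ← lp.single_smul, smul_eq_mul, mul_one]
  rw [this, map_smul]
  rfl

theorem op_ext {S T : L2 ι →L[ℂ] L2 ι} (h : ∀ i j, S (dl j) i = T (dl j) i) : S = T := by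
  ext z i
  rw [← (hasSum_apply S z i).tsum_eq, ← (hasSum_apply T z i).tsum_eq]
  simp only [h]

end wperm

section tr
variable {G : Type*} [Group G] {κ : Type*} [Fintype κ] [DecidableEq κ] [DecidableEq G]

/-- right translation on `κ × G` -/
def rt (κ : Type*) (y : G) : κ × G ≃ κ × G := Equiv.prodCongr (Equiv.refl κ) (Equiv.mulRight y)

theorem rt_apply (y : G) (a : κ) (x : G) : rt κ y (a, x) = (a, x * y) := rfl

theorem rt_symm (y : G) : (rt κ y).symm = rt κ y⁻¹ := by
  ext1 ⟨a, x⟩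
  rfl

/-- operators commuting with all right translations -/
def Inv (T : L2 (κ × G) →L[ℂ] L2 (κ × G)) : Prop :=
  ∀ (y : G) (z : L2 (κ × G)), T (pop (rt κ y) z) = pop (rt κ y) (T z)

theorem pop_dl (y : G) (j : κ) (g : G) : pop (rt κ y) (dl (j, g)) = dl (j, g * y⁻¹) := by
  ext ⟨a, x⟩
  rw [pop_apply, rt_apply, dl_apply, dl_apply]
  simp only [Prod.mk.injEq, eq_mul_inv_iff_mul_eq]

theorem Inv.coef {T : L2 (κ × G) →L[ℂ] L2 (κ × G)} (h : Inv T) (a j : κ) (x g : G) :
    T (dl (j, g)) (a, x) = T (dl (j, 1)) (a, x * g⁻¹) := by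
  have h1 : (dl (j, g) : L2 (κ × G)) = pop (rt κ g⁻¹) (dl (j, 1)) := by
    rw [pop_dl, one_mul, inv_inv]
  rw [h1, h, pop_apply, rt_apply]

/-- the canonical trace -/
noncomputable def tr (T : L2 (κ × G) →L[ℂ] L2 (κ × G)) : ℂ := ∑ i, T (dl (i, 1)) (i, 1)

theorem tr_mul_eq {S T : L2 (κ × G) →L[ℂ] L2 (κ × G)} (hS : Inv S) :
    tr (S * T) = ∑ i, ∑ j, ∑' g : G, T (dl (i, 1)) (j, g) * S (dl (j, 1)) (i, g⁻¹) := by
  refine Finset.sum_congr rfl fun i _ => ?_
  have h := hasSum_apply S (T (dl (i, 1))) (i, 1)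
  rw [ContinuousLinearMap.mul_apply, ← h.tsum_eq, h.summable.tsum_prod, tsum_fintype]
  refine Finset.sum_congr rfl fun j _ => tsum_congr fun g => ?_
  rw [hS.coef, one_mul]

theorem tr_mul_comm {S T : L2 (κ × G) →L[ℂ] L2 (κ × G)} (hS : Inv S) (hT : Inv T) :
    tr (S * T) = tr (T * S) := by
  rw [tr_mul_eq hS, tr_mul_eq hT, Finset.sum_comm]
  refine Finset.sum_congr rfl fun i _ => Finset.sum_congr rfl fun j _ => ?_
  rw [← (Equiv.inv G).tsum_eq]
  refine tsum_congr fun g => ?_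
  simp only [Equiv.inv_apply, inv_inv]
  ring

/-- positivity of the trace of an invariant idempotent operator -/
theorem tr_idem {E : L2 (κ × G) →L[ℂ] L2 (κ × G)} (hE : Inv E) (hEE : E * E = E) :
    ∃ t : ℝ, 0 ≤ t ∧ tr E = t ∧ (t = 0 → E = 0) := by
  set K : Submodule ℂ (L2 (κ × G)) := LinearMap.ker ((1 - E : L2 (κ × G) →L[ℂ] L2 (κ × G)) :
    L2 (κ × G) →ₗ[ℂ] L2 (κ × G)) with hK
  have hmem : ∀ z, z ∈ K ↔ E z = z := by
    intro z
    simp only [hK, LinearMap.mem_ker, ContinuousLinearMap.coe_coe, ContinuousLinearMap.sub_apply,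
      ContinuousLinearMap.one_apply, sub_eq_zero]
    exact eq_comm
  have hcl : IsClosed (K : Set (L2 (κ × G))) := ContinuousLinearMap.isClosed_ker _
  haveI : CompleteSpace K := hcl.completeSpace_coe
  set p : L2 (κ × G) →L[ℂ] L2 (κ × G) := K.starProjection with hp
  have hR : ∀ (y : G) z, z ∈ K → pop (rt κ y) z ∈ K := by
    intro y z hz
    rw [hmem] at hz ⊢
    rw [hE, hz]
  have hpI : Inv p := by
    intro y z
    refine Submodule.eq_starProjection_of_mem_of_inner_eq_zero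
      (hR y _ (K.starProjection_apply_mem z)) fun w hw => ?_
    rw [← map_sub, inner_pop, rt_symm]
    exact Submodule.starProjection_inner_eq_zero z _ (hR _ w hw)
  have hpE : p * E = E := by
    ext1 z
    refine Submodule.starProjection_eq_self_iff.2 ((hmem _).2 ?_)
    exact DFunLike.congr_fun hEE z
  have hEp : E * p = p := by
    ext1 z
    exact (hmem _).1 (K.starProjection_apply_mem z)
  have h1 : tr E = tr p := by
    rw [← hpE, tr_mul_comm hpI hE, hEp]
  have h2 : ∀ i : κ × G, p (dl i) i = ((‖p (dl i)‖ ^ 2 : ℝ) : ℂ) := by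
    intro i
    rw [← inner_dl]
    have h3 := Submodule.starProjection_inner_eq_zero (dl i) _ (K.starProjection_apply_mem (dl i))
    rw [inner_sub_left, sub_eq_zero] at h3
    rw [h3, inner_self_eq_norm_sq_to_K, Complex.ofReal_pow]
    rfl
  refine ⟨∑ i : κ, ‖p (dl (i, (1 : G)))‖ ^ 2, Finset.sum_nonneg fun i _ => by positivity, ?_, ?_⟩
  · rw [h1, tr, Complex.ofReal_sum]
    exact Finset.sum_congr rfl fun i _ => h2 _
  · intro h0
    rw [Finset.sum_eq_zero_iff_of_nonneg fun i _ => by positivity] at h0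
    have h4 : p = 0 := by
      refine op_ext fun ⟨a, x⟩ ⟨j, g⟩ => ?_
      have h5 : p (dl (j, (1 : G))) = 0 := by
        simpa using h0 j (Finset.mem_univ _)
      rw [hpI.coef, h5]
      rfl
    rw [← hpE, h4, zero_mul]

/-- the elementary operators -/
noncomputable def U (i j : κ) (g : G) : L2 (κ × G) →L[ℂ] L2 (κ × G) :=
  wop (Equiv.prodCongr (Equiv.swap i j) (Equiv.mulLeft g⁻¹)) (fun a => if a.1 = i then 1 else 0)
    (fun a => by split_ifs <;> simp)

theorem U_apply (i j : κ) (g : G) (z : L2 (κ × G)) (a : κ) (x : G) :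
    U i j g z (a, x) = if a = i then z (j, g⁻¹ * x) else 0 := by
  rw [U, wop_apply]
  split_ifs with h
  · subst h
    simp
  · simp

/-- the convolution operator of a matrix over `ℓ¹(G)` -/
noncomputable def conv (e : Matrix κ κ (G → ℂ)) : L2 (κ × G) →L[ℂ] L2 (κ × G) :=
  ∑ i, ∑ j, ∑' g, e i j g • U i j g

theorem conv_apply {e : Matrix κ κ (G → ℂ)} (he : ∀ i j, Summable fun g => ‖e i j g‖)
    (z : L2 (κ × G)) (a : κ) (x : G) :
    conv e z (a, x) = ∑ j, ∑' g, e a j g * z (j, g⁻¹ * x) := by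
  have hs : ∀ i j, Summable fun g => e i j g • U i j g := by
    intro i j
    refine Summable.of_norm_bounded (he i j) fun g => ?_
    rw [norm_smul]
    exact mul_le_of_le_one_right (norm_nonneg _) (norm_wop_le _ _ _)
  have h1 : ∀ i j, (∑' g, e i j g • U i j g) z (a, x) =
      if a = i then ∑' g, e i j g * z (j, g⁻¹ * x) else 0 := by
    intro i j
    have h2 := ((ev (a, x)).comp (ContinuousLinearMap.apply ℂ (L2 (κ × G)) z)).map_tsum (hs i j)
    simp only [ContinuousLinearMap.comp_apply, ContinuousLinearMap.apply_apply, ev_apply] at h2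
    rw [h2]
    have h3 : ∀ g, (e i j g • U i j g) z (a, x) = e i j g * U i j g z (a, x) := fun g => rfl
    simp only [h3, U_apply]
    split_ifs <;> simp
  rw [← ev_apply, conv]
  simp only [ContinuousLinearMap.sum_apply, map_sum, ev_apply, h1]
  rw [Finset.sum_comm]
  simp

theorem conv_dl {e : Matrix κ κ (G → ℂ)} (he : ∀ i j, Summable fun g => ‖e i j g‖)
    (j : κ) (y : G) (a : κ) (x : G) : conv e (dl (j, y)) (a, x) = e a j (x * y⁻¹) := by
  rw [conv_apply he, Finset.sum_eq_single j]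
  · rw [tsum_eq_single (x * y⁻¹)]
    · simp [dl_apply]
    · intro g hg
      rw [dl_apply, if_neg, mul_zero]
      intro h
      apply hg
      rw [← (Prod.mk.inj h).2]
      group
  · intro k _ hk
    simp [dl_apply, hk]
  · simp

theorem conv_inv {e : Matrix κ κ (G → ℂ)} (he : ∀ i j, Summable fun g => ‖e i j g‖) :
    Inv (conv e) := by
  intro y z
  ext ⟨a, x⟩
  rw [pop_apply, rt_apply, conv_apply he, conv_apply he]
  simp only [pop_apply, rt_apply, mul_assoc]

theorem conv_idem {e : Matrix κ κ (G → ℂ)} (he : ∀ i j, Summable fun g => ‖e i j g‖)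
    (hee : ∀ i j g, ∑ k, ∑' h, e i k h * e k j (h⁻¹ * g) = e i j g) :
    conv e * conv e = conv e := by
  refine op_ext fun ⟨a, x⟩ ⟨j, y⟩ => ?_
  rw [ContinuousLinearMap.mul_apply, conv_apply he, conv_dl he, ← hee]
  simp only [conv_dl he, mul_assoc]

/-- Kaplansky positivity for idempotent matrices over `ℓ¹(G)` -/
theorem kaplansky {e : Matrix κ κ (G → ℂ)} (he : ∀ i j, Summable fun g => ‖e i j g‖)
    (hee : ∀ i j g, ∑ k, ∑' h, e i k h * e k j (h⁻¹ * g) = e i j g) :
    ∃ t : ℝ, 0 ≤ t ∧ t ≤ Fintype.card κ ∧ ∑ i, e i i 1 = t ∧ (t = 0 → e = 0) ∧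
      (t = Fintype.card κ → ∀ i j g, e i j g = if i = j ∧ g = 1 then 1 else 0) := by
  have hI := conv_inv he
  have hE := conv_idem he hee
  obtain ⟨t, ht0, ht, htz⟩ := tr_idem hI hE
  have hI' : Inv (1 - conv e) := by
    intro y z
    simp only [ContinuousLinearMap.sub_apply, ContinuousLinearMap.one_apply, map_sub, hI y z]
  obtain ⟨s, hs0, hs, hsz⟩ := tr_idem hI' (IsIdempotentElem.one_sub hE)
  have h1 : tr (conv e) = ∑ i, e i i 1 := by
    simp only [tr, conv_dl he, inv_one, mul_one]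
  have h2 : tr (1 - conv e) = Fintype.card κ - tr (conv e) := by
    have h3 : ∀ i : κ, (1 - conv e) (dl (i, (1 : G))) (i, 1) =
        1 - conv e (dl (i, 1)) (i, 1) := by
      intro i
      rw [← ev_apply, ContinuousLinearMap.sub_apply, map_sub, ev_apply, ev_apply]
      simp [dl_apply]
    simp only [tr, h3, Finset.sum_sub_distrib]
    simp
  have h4 : s = Fintype.card κ - t := by
    rw [hs, ht] at h2
    exact_mod_cast h2
  refine ⟨t, ht0, by linarith, h1 ▸ ht, fun h => ?_, fun h i j g => ?_⟩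
  · ext i j g
    have h5 := conv_dl he j 1 i g
    rw [htz h] at h5
    simpa using h5.symm
  · have h5 := conv_dl he j 1 i g
    have h6 := hsz (by linarith)
    rw [sub_eq_zero] at h6
    rw [← h6] at h5
    simpa [dl_apply] using h5.symm

end tr

end Vale.Agent.N184
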