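import Mathlib

/-!
Divisibility of trace coefficients of idempotent matrices over group rings at torsion elements:
expansion of a prime power into cyclic words.
-/

set_option linter.all false

namespace Vale.Agent.N184

/-- a function invariant under a permutation all of whose relevant cycles have length divisible
by `d` has sum divisible by `d` -/
theorem dvd_sum_of_perm {X R : Type*} [Fintype X] [CommRing R] (σ : Equiv.Perm X) (f : X → R)
    (hf : ∀ x, f (σ x) = f x) (d : ℕ) (hd : ∀ x, f x ≠ 0 → d ∣ Function.minimalPeriod σ x) :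
    (d : R) ∣ ∑ x, f x := by
  classical
  have hz : ∀ (g : Subgroup.zpowers σ) x, f (g • x) = f x := by
    rintro ⟨g, n, rfl⟩ x
    change f ((σ ^ n) x) = f x
    induction n using Int.induction_on generalizing x with
    | zero => rfl
    | succ n ih => rw [zpow_add_one, Equiv.Perm.mul_apply, ih, hf]
    | pred n ih =>
      rw [zpow_sub_one, Equiv.Perm.mul_apply, ih, ← hf (σ⁻¹ x)]
      simp
  rw [← Finset.sum_fiberwise Finset.univ
    (Quotient.mk (MulAction.orbitRel (Subgroup.zpowers σ) X)) f]
  refine Finset.dvd_sum fun ω _ => ?_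
  obtain ⟨x, rfl⟩ := Quotient.exists_rep ω
  have h1 : ∀ y, (Quotient.mk (MulAction.orbitRel (Subgroup.zpowers σ) X) y =
      Quotient.mk (MulAction.orbitRel (Subgroup.zpowers σ) X) x) ↔
      y ∈ MulAction.orbit (Subgroup.zpowers σ) x := fun y => by
    rw [Quotient.eq, MulAction.orbitRel_apply]
  rw [Finset.sum_congr rfl (g := fun _ => f x)]
  · rw [Finset.sum_const, nsmul_eq_mul]
    by_cases h0 : f x = 0
    · simp [h0]
    refine Dvd.dvd.mul_right (Nat.cast_dvd_cast ?_) _
    have h2 := MulAction.minimalPeriod_eq_card σ x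
    have h3 := hd x h0
    have h4 : Function.minimalPeriod σ x = Function.minimalPeriod (fun y => σ • y) x := rfl
    rw [h4, h2, ← Set.toFinset_card] at h3
    convert h3 using 2
    ext y
    simp [h1]
  · intro y hy
    obtain ⟨g, rfl⟩ := (h1 y).1 (Finset.mem_filter.1 hy).2
    exact hz g x

/-- the product along a cyclic word -/
def wprod {A : Type*} [Monoid A] (N : ℕ) (w : ZMod N → A) : A :=
  ((List.range N).map fun i : ℕ => w (i : ZMod N)).prod

theorem wprod_eq_ofFn {A : Type*} [Monoid A] (n : ℕ) (w : Fin (n + 1) → A) :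
    wprod (n + 1) w = (List.ofFn w).prod := by
  unfold wprod
  congr 1
  refine List.ext_getElem (by simp) fun i h1 h2 => ?_
  simp only [List.getElem_map, List.getElem_range, List.getElem_ofFn]
  congr 1
  refine Fin.ext ?_
  exact ZMod.val_natCast_of_lt (n := n + 1) (by simpa using h2)

theorem sum_pow_ofFn {A S : Type*} [Semiring A] [Fintype S] (a : S → A) (n : ℕ) :
    (∑ s, a s) ^ n = ∑ w : Fin n → S, (List.ofFn fun i => a (w i)).prod := by
  induction n with
  | zero => simp
  | succ n ih =>
    rw [pow_succ', ih, Finset.sum_mul_sum, ← Fintype.sum_prod_type',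
      ← (Fin.consEquiv fun _ : Fin (n + 1) => S).sum_comp]
    refine Finset.sum_congr rfl fun p _ => ?_
    simp [List.ofFn_succ, Fin.consEquiv]

theorem sum_pow_wprod {A S : Type*} [Semiring A] [Fintype S] (a : S → A) (N : ℕ) [NeZero N] :
    (∑ s, a s) ^ N = ∑ w : ZMod N → S, wprod N fun i => a (w i) := by
  obtain ⟨n, rfl⟩ := Nat.exists_eq_succ_of_ne_zero (NeZero.ne N)
  rw [sum_pow_ofFn]
  exact Finset.sum_congr (by congr!) fun w _ => (wprod_eq_ofFn n fun i => a (w i)).symm

theorem wprod_rot {A : Type*} [Monoid A] (N : ℕ) [NeZero N] (w : ZMod N → A) :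
    ∃ x y : A, wprod N w = x * y ∧ wprod N (fun i => w (i + 1)) = y * x := by
  obtain ⟨n, rfl⟩ := Nat.exists_eq_succ_of_ne_zero (NeZero.ne N)
  refine ⟨w 0, ((List.range n).map fun i : ℕ => w ((i : ZMod (n + 1)) + 1)).prod, ?_, ?_⟩
  · rw [wprod, List.range_succ_eq_map]
    simp [Function.comp_def]
  · rw [wprod, List.range_succ]
    simp

theorem range_prod_periodic {A : Type*} [Monoid A] (u : ℕ → A) (P : ℕ) (hu : ∀ i, u (i + P) = u i)
    (m : ℕ) : ((List.range (P * m)).map u).prod = ((List.range P).map u).prod ^ m := by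
  have h1 : ∀ m i, u (P * m + i) = u i := by
    intro m
    induction m with
    | zero => simp
    | succ m ih => intro i; rw [show P * (m + 1) + i = P * m + i + P by ring, hu, ih]
  induction m with
  | zero => simp
  | succ m ih =>
    rw [mul_add, mul_one, List.range_add, List.map_append, List.prod_append, ih, pow_succ,
      List.map_map]
    simp only [Function.comp_def, h1]

/-- the cyclic shift on words -/
def shift (N : ℕ) (S : Type*) : Equiv.Perm (ZMod N → S) :=
  Equiv.arrowCongr (Equiv.addRight (1 : ZMod N)).symm (Equiv.refl S)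

theorem shift_apply (N : ℕ) (S : Type*) (w : ZMod N → S) :
    shift N S w = fun i => w (i + 1) := rfl

theorem shift_iter (N : ℕ) (S : Type*) (k : ℕ) (w : ZMod N → S) :
    (shift N S)^[k] w = fun i => w (i + k) := by
  induction k generalizing w with
  | zero => simp
  | succ k ih =>
    rw [Function.iterate_succ_apply, ih, shift_apply]
    simp [add_assoc]

/-- the key divisibility: `f` is a cyclically invariant function on the monoid `B`; if it vanishes
on the `p ^ m`-th powers of the words of length `p ^ J`, the sum over the words of length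
`p ^ (J + m)` is divisible by `p ^ (J + 1)` -/
theorem dvd_sum_words {B S R : Type*} [Monoid B] [Fintype S] [CommRing R] (b : S → B) (f : B → R)
    (hf : ∀ x y, f (x * y) = f (y * x)) {p : ℕ} (hp : p.Prime) (J m : ℕ)
    [NeZero (p ^ (J + m))]
    (h0 : ∀ l : List S, l.length = p ^ J → f ((l.map b).prod ^ p ^ m) = 0) :
    ((p ^ (J + 1) : ℕ) : R) ∣
      ∑ w : ZMod (p ^ (J + m)) → S, f (wprod (p ^ (J + m)) fun i => b (w i)) := by
  classical
  refine dvd_sum_of_perm (shift _ S) _ (fun w => ?_) _ fun w hw => ?_
  · obtain ⟨x, y, h1, h2⟩ := wprod_rot (p ^ (J + m)) fun i => b (w i)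
    rw [shift_apply, h1, h2, hf]
  · have h1 : Function.IsPeriodicPt (shift (p ^ (J + m)) S) (p ^ (J + m)) w := by
      rw [Function.IsPeriodicPt, Function.IsFixedPt, shift_iter]
      simp only [ZMod.natCast_self, add_zero]
    obtain ⟨j, -, hj⟩ := (Nat.dvd_prime_pow hp).1 h1.minimalPeriod_dvd
    rw [hj]
    refine pow_dvd_pow p (Nat.succ_le_of_lt (lt_of_not_ge fun hJ => hw ?_))
    have h2 : Function.IsPeriodicPt (shift (p ^ (J + m)) S) (p ^ J) w := by
      rw [Function.isPeriodicPt_iff_minimalPeriod_dvd, hj]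
      exact pow_dvd_pow p hJ
    rw [Function.IsPeriodicPt, Function.IsFixedPt, shift_iter] at h2
    have h3 := range_prod_periodic (fun i : ℕ => b (w (i : ZMod (p ^ (J + m))))) (p ^ J)
      (fun i => by rw [Nat.cast_add]; exact congrArg b (congrFun h2 _)) (p ^ m)
    rw [← pow_add] at h3
    rw [wprod, h3]
    have h4 := h0 ((List.range (p ^ J)).map fun i : ℕ => w (i : ZMod (p ^ (J + m)))) (by simp)
    rw [List.map_map] at h4
    exact h4

end Vale.Agent.N184
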